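import Claimed.Agent.R282.S2C.Iface

/-!
# Row 282, Sec. 2, layers 2A + 2B: definitions

* `Ty`, `IsSched`, `IsDecPath` : see `S2C/Iface.lean` (shared with layer 2C).
* combinatorial Bruhat order on frames (generated by downward reflections; no geometry).
* `IsVPath` : decreasing dominant paths in vertex form (time-free), used by the path model.
* `StarRep`, `IsHW`, `RepOcc` : the representation-theoretic interface (matrix `*`-representations of
  `so(2n, ℂ)` and of `gl_n = ` centraliser of `J(1,…,1)` in it).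
-/

set_option autoImplicit false

namespace Claimed.Agent.R282

variable {n : ℕ}

/-- positive roots: `e_i ± e_j` with `i < j` -/
def RootD.Pos (β : RootD n) : Prop := 0 < dot β.vec (rhoV n)

/-- the semisimple space (real span of the roots) -/
def Ty.ss (ty : Ty) (n : ℕ) : Submodule ℝ (Vec n) :=
  Submodule.span ℝ {v | ∃ β : RootD n, ty.IsRoot β ∧ v = β.vec}

/-- integral vectors -/
def castV (x : Fin n → ℤ) : Vec n := fun i => (x i : ℝ)

/-! ## Bruhat order on frames (paper: "downward reflection steps `u ↦ s_β u`, `β > 0`, `u⁻¹ β < 0`") -/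

/-- one downward reflection step -/
def Down (ty : Ty) (f g : Vec n → Vec n) : Prop :=
  ∃ β : RootD n, ty.IsRoot β ∧ β.Pos ∧ dot (f (rhoV n)) β.vec < 0 ∧ g = fun x => refl β (f x)

/-- `BGe ty f g` : `f ≥ g` in the Bruhat order -/
def BGe (ty : Ty) : (Vec n → Vec n) → (Vec n → Vec n) → Prop := Relation.ReflTransGen (Down ty)

/-! ## Schedules for both families -/

/-- existence of a real schedule for the family `ty` -/
def HasSched (ty : Ty) (lam : Vec n) (θ : Shape n) (xi : Vec n) : Prop :=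
  ∃ w0 l, IsSched ty lam θ xi w0 l

/-! ## Decreasing dominant paths (vertex form) -/

/-- vertex form: pieces `(w_k, p_k)`, the path runs through `lam + ∑_{j ≤ k} w_j p_j`. -/
structure IsVPath (ty : Ty) (lam : Vec n) (P : List (WD n × Vec n)) (xi : Vec n) : Prop where
  weyl : ∀ a ∈ P, ty.IsW a.1
  reg : ∀ a ∈ P, ty.Reg a.2
  dec : P.Pairwise (fun a b => BGe ty a.1.act b.1.act)
  dom : ∀ k, ty.Dom (lam + ((P.take k).map fun a => a.1.act a.2).sum)
  endpoint : lam + (P.map fun a => a.1.act a.2).sum = xi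

/-! ## Representation interface -/

/-- index set of the defining representation `ℂ^{2n}` -/
abbrev Ix (n : ℕ) := Fin n × Fin 2

/-- complexification of `Jmat` -/
def JmatC (x : Vec n) : Matrix (Ix n) (Ix n) ℂ := (Jmat x).map (fun r => (r : ℂ))

/-- the Hermitian torus generator `H(x) = i J(x)` -/
noncomputable def Hc (x : Vec n) : Matrix (Ix n) (Ix n) ℂ := Complex.I • JmatC x

/-- the complex Lie algebra: `so(2n, ℂ)`, resp. the centraliser of `J(1,…,1)` in it (`≅ gl_n`). -/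
def Ty.InG (ty : Ty) (X : Matrix (Ix n) (Ix n) ℂ) : Prop :=
  X.transpose = -X ∧ (ty = Ty.A → X * JmatC (fun _ => 1) = JmatC (fun _ => 1) * X)

/-- a finite-dimensional `*`-representation in matrix form -/
structure StarRep (ty : Ty) (n : ℕ) (ι : Type) [Fintype ι] [DecidableEq ι] where
  ρ : Matrix (Ix n) (Ix n) ℂ →ₗ[ℂ] Matrix ι ι ℂ
  bracket : ∀ X Y, ty.InG X → ty.InG Y → ρ (X * Y - Y * X) = ρ X * ρ Y - ρ Y * ρ X
  star : ∀ X, ty.InG X → ρ X.conjTranspose = (ρ X).conjTranspose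

/-- `E` is a root vector for `β` -/
def IsRootVec (ty : Ty) (β : RootD n) (E : Matrix (Ix n) (Ix n) ℂ) : Prop :=
  ty.InG E ∧ ∀ x : Vec n, Hc x * E - E * Hc x = ((dot β.vec x : ℝ) : ℂ) • E

section
variable {ty : Ty} {ι : Type} [Fintype ι] [DecidableEq ι]

/-- highest weight vector of weight `lam` -/
structure IsHW (R : StarRep ty n ι) (v : ι → ℂ) (lam : Vec n) : Prop where
  ne : v ≠ 0
  wt : ∀ x : Vec n, (R.ρ (Hc x)).mulVec v = ((dot lam x : ℝ) : ℂ) • v
  top : ∀ (β : RootD n) (E : Matrix (Ix n) (Ix n) ℂ), β.Pos → IsRootVec ty β E →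
    (R.ρ E).mulVec v = 0

/-- the cyclic submodule generated by `v` -/
def StarRep.cyc (R : StarRep ty n ι) (v : ι → ℂ) : Submodule ℂ (ι → ℂ) :=
  sInf {S | v ∈ S ∧ ∀ X, ty.InG X → ∀ a ∈ S, (R.ρ X).mulVec a ∈ S}

end

/-- `V(xi)` occurs in `V(lam) ⊗ V(mu)`, in model-free form: an equivariant bilinear map between
`*`-representations which does not vanish between the cyclic modules of highest weight vectors. -/
def RepOcc (ty : Ty) (lam mu xi : Vec n) : Prop :=
  ∃ (m₁ m₂ m₃ : ℕ) (R₁ : StarRep ty n (Fin m₁)) (R₂ : StarRep ty n (Fin m₂))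
    (R₃ : StarRep ty n (Fin m₃))
    (T : (Fin m₁ → ℂ) →ₗ[ℂ] (Fin m₂ → ℂ) →ₗ[ℂ] (Fin m₃ → ℂ))
    (v₁ : Fin m₁ → ℂ) (v₂ : Fin m₂ → ℂ) (v₃ : Fin m₃ → ℂ),
    (∀ X, ty.InG X → ∀ a b, (R₃.ρ X).mulVec (T a b)
        = T ((R₁.ρ X).mulVec a) b + T a ((R₂.ρ X).mulVec b)) ∧
    IsHW R₁ v₁ lam ∧ IsHW R₂ v₂ mu ∧ IsHW R₃ v₃ xi ∧
    ∃ a ∈ R₁.cyc v₁, ∃ b ∈ R₂.cyc v₂, ∃ c ∈ R₃.cyc v₃, star c ⬝ᵥ T a b ≠ 0

end Claimed.Agent.R282
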