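import Claimed.Agent.R282.S2AB.PM
import Claimed.Agent.R282.S2AB.AN2.Main
import Claimed.Agent.R282.S2AB.PL.Main
import Claimed.Agent.R282.S2AB.AN1.KN
import Claimed.Agent.R282.S2AB.AN1.Occ

/-!
# Row 282, Sec. 2, layers 2A + 2B: second-level contracts

Route (differs from the paper in 2B; no flag varieties, no symmetric spaces, no Brouwer):

* hub = `RepOcc` (occurrence in `*`-representations) and the LS path model for REGULAR shapes;
* `repOcc_moment` (K0)  = Lemma 2.5 (Kempf-Ness, infinitesimal form);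
* `moment_repOcc_approx` (K4) : moment ⇒ asymptotic occurrence (Casimir + weight variance);
* `repOcc_decpath` (K5), `vpath_repOcc` (K6) : Littelmann's rule for standard concatenations of LS
  paths of regular weights + Weyl character formula: see `S2AB/PM.lean`;
* `moment_open_approx` (T2B-2) : implicit function theorem at a triple with trivial centraliser;
* `sched_fold_dom` (K11'), `decpath_regularize` (K10') : PL combinatorics of Lemma 2.6.
-/

set_option autoImplicit false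

namespace Claimed.Agent.R282

variable {n : ℕ}

-- `ShapeNear` (two shapes with the same number of pieces and `ε`-close increments): `S2AB/PL/Basic.lean`

/-! ## the moment problem -/

/-- (K0) Lemma 2.5 (invariants give moments), model-free form. -/
theorem repOcc_moment (lam mu xi : Vec n) (h : RepOcc Ty.D lam mu xi) :
    Ty.D.Moment lam mu xi :=
  an1_repOcc_moment lam mu xi h

/-- (K1) compactness of the orbits -/
theorem moment_closed (a b c : Vec n)
    (h : ∀ ε > 0, ∃ a' b' c' : Vec n, dist a' a < ε ∧ dist b' b < ε ∧ dist c' c < ε ∧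
      Ty.D.Moment a' b' c') : Ty.D.Moment a b c :=
  an2_moment_closed a b c h

/-- (K2) the labels only matter up to the Weyl group -/
theorem moment_weyl (a b c : Vec n) (w₁ w₃ : WD n) (h₁ : Ty.D.IsW w₁)
    (h₃ : Ty.D.IsW w₃) :
    Ty.D.Moment (w₁.act a) b (w₃.act c) ↔ Ty.D.Moment a b c :=
  an2_moment_weyl a b c w₁ w₃

/-- (K2') the same for the moving label -/
theorem moment_weyl_mid (a b c : Vec n) (w₂ : WD n) (h₂ : Ty.D.IsW w₂) :
    Ty.D.Moment a (w₂.act b) c ↔ Ty.D.Moment a b c :=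
  an2_moment_weyl_mid a b c w₂

/-- (K3) scaling -/
theorem moment_smul (a b c : Vec n) (r : ℝ) (h : Ty.D.Moment a b c) :
    Ty.D.Moment (r • a) (r • b) (r • c) :=
  an2_moment_smul a b c r h

/-- (K3') the central equation -/
theorem moment_central (a b c : Vec n) (h : Ty.D.Moment a b c) : a + b - c ∈ Ty.D.ss n :=
  an2_moment_central a b c h

/-- (K3'') the two forms of the central equation -/
theorem central_iff_ss (hn : 2 ≤ n) (a b c : Vec n) :
    Ty.D.Central a b c ↔ a + b - c ∈ Ty.D.ss n :=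
  an2_central_iff_ss hn a b c

/-- (T2B-2) replaces Lemma 2.8 (strict approximation): every moment triple is a limit of interior
points of the set of moment triples (relative to the central equation). -/
theorem moment_open_approx (lam mu xi : Vec n) (hl : Ty.D.Dom lam) (hm : Ty.D.Dom mu)
    (hx : Ty.D.Dom xi) (h : Ty.D.Moment lam mu xi) (ε : ℝ) (hε : 0 < ε) :
    ∃ lam' mu' xi' : Vec n, dist lam' lam < ε ∧ dist mu' mu < ε ∧ dist xi' xi < ε ∧
      lam' + mu' - xi' ∈ Ty.D.ss n ∧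
      ∃ δ > 0, ∀ a b c : Vec n, dist a lam' < δ → dist b mu' < δ → dist c xi' < δ →
        a + b - c ∈ Ty.D.ss n → Ty.D.Reg a ∧ Ty.D.Reg b ∧ Ty.D.Reg c ∧ Ty.D.Moment a b c :=
  an2_moment_open_approx lam mu xi hl hm hx h ε hε

/-- (K4) moment ⇒ asymptotic occurrence. -/
theorem moment_repOcc_approx (lam mu xi : Fin n → ℤ) (hl : Ty.D.Dom (castV lam))
    (hm : Ty.D.Dom (castV mu)) (hx : Ty.D.Dom (castV xi))
    (h : Ty.D.Moment (castV lam) (castV mu) (castV xi)) (ε : ℝ) (hε : 0 < ε) :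
    ∃ N : ℕ, 0 < N ∧ ∃ κ : Fin n → ℤ, Ty.D.Dom (castV κ) ∧
      RepOcc Ty.D (castV (N • lam)) (castV (N • mu)) (castV κ) ∧
      dist ((N : ℝ)⁻¹ • castV κ) (castV xi) < ε :=
  an1_moment_repOcc_approx lam mu xi hl hm hx h ε hε

/-! ## PL lemmas on decreasing paths -/

/-- (K7) the path class is closed in all its data -/
theorem decpath_closed (lam xi : Vec n) (θ : Shape n)
    (h : ∀ ε > 0, ∃ (lam' : Vec n) (θ' : Shape n) (xi' : Vec n), dist lam' lam < ε ∧
      ShapeNear ε θ' θ ∧ dist xi' xi < ε ∧ HasDecPath Ty.D lam' θ' xi') :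
    HasDecPath Ty.D lam θ xi :=
  pl_decpath_closed lam xi θ h

/-- (K8) scaling -/
theorem decpath_smul (lam xi : Vec n) (θ : Shape n) (r : ℝ) (hr : 0 < r)
    (h : HasDecPath Ty.D lam θ xi) : HasDecPath Ty.D (r • lam) (θ.map fun v => r • v) (r • xi) :=
  pl_decpath_smul lam xi θ r hr h

/-- (K9) time form ⇒ vertex form -/
theorem decpath_vpath (lam xi : Vec n) (θ : Shape n) (hθ : ∀ v ∈ θ, Ty.D.Reg v)
    (h : HasDecPath Ty.D lam θ xi) :
    ∃ P : List (WD n × Vec n), IsVPath Ty.D lam P xi ∧ (P.map fun a => a.2).sum = θ.sum :=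
  pl_decpath_vpath lam xi θ hθ h

/-- (K15) shift by `ε ρ`, then all conditions are open: rational approximation of vertex paths. -/
theorem vpath_rat_approx (lam xi : Vec n) (P : List (WD n × Vec n))
    (h : IsVPath Ty.D lam P xi) (ε : ℝ) (hε : 0 < ε) :
    ∃ (N : ℕ) (lam' xi' : Fin n → ℤ) (P' : List (WD n × (Fin n → ℤ))), 0 < N ∧
      IsVPath Ty.D (castV lam') (P'.map fun a => (a.1, castV a.2)) (castV xi') ∧
      dist ((N : ℝ)⁻¹ • castV lam') lam < ε ∧
      dist ((N : ℝ)⁻¹ • castV (P'.map fun a => a.2).sum) (P.map fun a => a.2).sum < ε ∧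
      dist ((N : ℝ)⁻¹ • castV xi') xi < ε :=
  pl_vpath_rat_approx lam xi P h ε hε

/-- (K13) rational points are dense in the central equation, shape version -/
theorem rat_approx (lam mu xi : Vec n) (θ : Shape n) (hne : θ ≠ [])
    (hc : lam + mu - xi ∈ Ty.D.ss n) (ε : ℝ) (hmu : dist mu θ.sum < ε) (δ : ℝ) (hδ : 0 < δ) :
    ∃ (N : ℕ) (a c : Fin n → ℤ) (θ' : List (Fin n → ℤ)), 0 < N ∧
      dist ((N : ℝ)⁻¹ • castV a) lam < δ ∧ dist ((N : ℝ)⁻¹ • castV θ'.sum) mu < δ ∧
      dist ((N : ℝ)⁻¹ • castV c) xi < δ ∧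
      (N : ℝ)⁻¹ • castV a + (N : ℝ)⁻¹ • castV θ'.sum - (N : ℝ)⁻¹ • castV c ∈ Ty.D.ss n ∧
      ShapeNear ε (θ'.map fun v => (N : ℝ)⁻¹ • castV v) θ :=
  pl_rat_approx lam mu xi θ hne hc ε hmu δ hδ

/-- (K16) regularity is an open condition on shapes -/
theorem shape_reg_open (θ : Shape n) (hθ : ∀ v ∈ θ, Ty.D.Reg v) :
    ∃ ε₀ > 0, ∀ θ' : Shape n, ShapeNear ε₀ θ' θ → ∀ v ∈ θ', Ty.D.Reg v :=
  pl_shape_reg_open θ hθ

/-- (K17) -/
theorem reg_dom (x : Vec n) (h : Ty.D.Reg x) : Ty.D.Dom x :=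
  pl_reg_dom x h

/-- (K18) -/
theorem dom_sum (θ : Shape n) (h : ∀ v ∈ θ, Ty.D.Dom v) : Ty.D.Dom θ.sum :=
  sc_dom_sum θ h

/-- (K19) -/
theorem reg_smul (x : Vec n) (r : ℝ) (hr : 0 < r) : Ty.D.Reg (r • x) ↔ Ty.D.Reg x :=
  pl_reg_smul_iff x r hr

/-- (K20) -/
theorem dom_smul (x : Vec n) (r : ℝ) (hr : 0 < r) : Ty.D.Dom (r • x) ↔ Ty.D.Dom x :=
  pl_dom_smul_iff x r hr

/-! ## PL lemmas on schedules (proof of Lemma 2.6) -/

/-- (K21) a common Weyl action moves `lam` into the chamber; `xi` only matters up to `W`.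
[`Sched/Calc` equivariance, `Sched/Block` sc_exists_dom] -/
theorem sched_weyl (lam xi : Vec n) (θ : Shape n) (h : HasSched Ty.D lam θ xi) :
    ∃ w₁ w₂ : WD n, Ty.D.Dom (w₁.act lam) ∧ Ty.D.Dom (w₂.act xi) ∧
      HasSched Ty.D (w₁.act lam) θ (w₂.act xi) :=
  pl_sched_weyl lam xi θ h

/-- (K11') DIRECT FOLDING of a real schedule, any shape with dominant increments (no perturbation, no
genericity).  This is `col_fold_raw` of `Col/Iface.lean` (first half of Lemma 5.2) without its labels: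
invariant `S'.pos = g (S.pos)`, `u = g w` on the span of the increments; switch with `G = 0`: `g := g s_β`;
`G > 0`, total `= 0`: nothing; `G > 0`, total `> 0`: downward step `g β`; exit from the chamber at `t*`:
downward step by a positive root `a` with `a · x = 0`; termination: `(u ρ) · ρ` increases. -/
theorem sched_fold_dom (lam xi : Vec n) (θ : Shape n) (hθ : ∀ v ∈ θ, Ty.D.Dom v)
    (hl : Ty.D.Dom lam) (hx : Ty.D.Dom xi) (h : HasSched Ty.D lam θ xi) :
    HasDecPath Ty.D lam θ xi :=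
  pl_sched_fold_dom lam xi θ hθ hl hx h

/-- (K10') same frames and times, `θ' = θ + ε' ρ` per piece, `lam' = lam + C ε' ρ` with
`C > θ.length * max |<u ρ, β>|`: the downward conditions do not involve the shape, and
`x'(t) - x(t) = ε' (C ρ + ∑ durations • u_j ρ)` is dominant. -/
theorem decpath_regularize (lam xi : Vec n) (θ : Shape n) (hθ : ∀ v ∈ θ, Ty.D.Dom v)
    (h : HasDecPath Ty.D lam θ xi) (ε : ℝ) (hε : 0 < ε) :
    ∃ (lam' : Vec n) (θ' : Shape n) (xi' : Vec n), (∀ v ∈ θ', Ty.D.Reg v) ∧ dist lam' lam < ε ∧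
      dist θ'.sum θ.sum < ε ∧ dist xi' xi < ε ∧ HasDecPath Ty.D lam' θ' xi' :=
  pl_decpath_regularize lam xi θ hθ h ε hε

end Claimed.Agent.R282
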