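import Claimed.Agent.R282.S2AB.PM.Count
import Claimed.Agent.R282.S2AB.PM.Trans
import Claimed.Agent.R282.Rep.Iface
import Claimed.Agent.R282.S2AB.AN1.KN
import Claimed.Agent.R282.S2AB.AN1.Occ
import Claimed.Agent.R282.S2AB.AN2.Basic

/-!
# Row 282, Sec. 2, package PM: top file

`PM/Defs` (definitions), `PM/Weyl` (W), `PM/Bruhat` (B), `PM/Link` (LK), `PM/Height` (G, H), `PM/Oper` (F, CR),
`PM/Count` (AL, S, I, C; proves PM-0 `ls_weylChar`, PM-1 `ls_klimyk` from the leaves), `PM/Trans` (T).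
Here: the interface `rep_klimyk` to representations (owner: package REP) and the glue K5, K6.
-/

set_option autoImplicit false

namespace Claimed.Agent.R282

variable {n : ℕ}

/-! ## the interface to representations: Klimyk's formula on undoubled integral weights, all `n` -/

/-- doubling -/
def dblZ (x : Fin n → ℤ) : Fin n → ℤ := fun i => 2 * x i

theorem dblZ_injective {x y : Fin n → ℤ} (h : dblZ x = dblZ y) : x = y := by
  funext i
  have := congrFun h i
  simp only [dblZ] at this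
  omega

theorem dblZ_add (x y : Fin n → ℤ) : dblZ (x + y) = dblZ x + dblZ y := by
  funext i
  simp [dblZ, mul_add]

theorem dblZ_sub (x y : Fin n → ℤ) : dblZ (x - y) = dblZ x - dblZ y := by
  funext i
  simp [dblZ, mul_sub]

theorem rho2_eq_dblZ : Claims.C0456.rho2 n = dblZ (rhoZ n) := rfl

theorem signedPermAct_dblZ (σ : Equiv.Perm (Fin n)) (s : Fin n → Bool) (x : Fin n → ℤ) :
    Claims.C0456.signedPermAct σ s (dblZ x) = dblZ (Claims.C0456.signedPermAct σ s x) := by
  funext i
  simp only [Claims.C0456.signedPermAct, dblZ]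
  ring

theorem altWD_dblZ (G : (Fin n → ℤ) → ℤ) (x : Fin n → ℤ) :
    altWD G (dblZ x) = altW (fun y => G (dblZ y)) x := by
  unfold altWD altW
  simp only [signedPermAct_dblZ]

open Classical in
/-- the character on doubled weights -/
noncomputable def dblChar (m : (Fin n → ℤ) → ℤ) : (Fin n → ℤ) → ℤ :=
  fun y => if h : ∃ y', y = dblZ y' then m h.choose else 0

theorem dblChar_dblZ (m : (Fin n → ℤ) → ℤ) (y : Fin n → ℤ) : dblChar m (dblZ y) = m y := by
  have h : ∃ y', dblZ y = dblZ y' := ⟨y, rfl⟩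
  unfold dblChar
  rw [dif_pos h, ← dblZ_injective h.choose_spec]

theorem dblChar_of_not (m : (Fin n → ℤ) → ℤ) {y : Fin n → ℤ} (h : ¬ ∃ y', y = dblZ y') :
    dblChar m y = 0 := by
  unfold dblChar
  rw [dif_neg h]

theorem isWeylChar2_dbl {mu : Fin n → ℤ} {m : (Fin n → ℤ) → ℤ} (hW : IsWeylChar mu m) :
    IsWeylChar2 (dblZ mu) (dblChar m) := by
  refine ⟨?_, fun ν => ?_⟩
  · apply Set.Finite.subset (hW.1.image dblZ)
    intro y hy
    rw [Function.mem_support] at hy
    by_cases h : ∃ y', y = dblZ y'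
    · obtain ⟨y', rfl⟩ := h
      rw [dblChar_dblZ] at hy
      exact ⟨y', hy, rfl⟩
    · exact absurd (dblChar_of_not m h) hy
  · rw [rho2_eq_dblZ, ← dblZ_add, altWD_dblZ, altWD_dblZ]
    by_cases h : ∃ χ, ν = dblZ χ
    · obtain ⟨χ, rfl⟩ := h
      have := hW.2 χ
      simp only [← dblZ_sub, dblChar_dblZ]
      rw [this]
      congr 1
      funext y
      by_cases e : χ = y
      · rw [if_pos e, if_pos (by rw [e])]
      · rw [if_neg e, if_neg (fun e' => e (dblZ_injective e'))]
    · have h1 : ∀ y, dblChar m (ν - dblZ y) = 0 := by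
        intro y
        apply dblChar_of_not
        rintro ⟨y', hy'⟩
        exact h ⟨y' + y, by rw [dblZ_add, ← hy']; abel⟩
      have h2 : ∀ y, (if ν = dblZ y then (1 : ℤ) else 0) = 0 := by
        intro y
        rw [if_neg]
        intro e
        exact h ⟨y, e⟩
      simp only [h1, h2]
      simp [altW]

theorem halfV_dblZ (x : Fin n → ℤ) : halfV (dblZ x) = castV x := an1_halfV_double x

theorem dominant2_dblZ {x : Fin n → ℤ} (h : DomZ x) : Claims.C0456.IsDominantWeight2 (dblZ x) :=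
  an1_dominant2 x ((domZ_iff x).1 h)

/-- the Cartan component always occurs -/
theorem repOcc_add (lam mu : Fin n → ℤ) (hl : DomZ lam) (hm : DomZ mu) :
    RepOcc Ty.D (castV lam) (castV mu) (castV lam + castV mu) := by
  obtain ⟨m₁, R₁, v₁, h₁⟩ := rep_exists _ (dominant2_dblZ hl)
  obtain ⟨m₂, R₂, v₂, h₂⟩ := rep_exists _ (dominant2_dblZ hm)
  rw [halfV_dblZ] at h₁ h₂
  exact an1_repOcc_of_prim R₁ R₂ v₁ v₂ _ _ _ h₁ h₂ (tmul v₁ v₂)
    (Submodule.subset_span ⟨v₁, an1_mem_cyc R₁ v₁, v₂, an1_mem_cyc R₂ v₂, rfl⟩)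
    (isHW_kron R₁ R₂ v₁ v₂ _ _ h₁ h₂)

/-- for `n ≤ 1` the Weyl group is trivial -/
theorem altW_small (hn : n ≤ 1) (F : (Fin n → ℤ) → ℤ) (x : Fin n → ℤ) : altW F x = F x := by
  have hreg : ∀ y : Fin n → ℤ, RegZ y := by
    intro y i j hij
    have h1 := i.2
    have h2 := j.2
    have h3 : (i : ℕ) < j := hij
    omega
  have hsub : ∀ w : WD n, w = 1 := fun w => regZ_free (hreg 0) (hreg (w.actZ 0)) rfl
  rw [altW_eq_sum, Finset.sum_eq_single 1 (fun w _ hw => absurd (hsub w) hw)
    (fun h => absurd (Finset.mem_univ _) h), det_one, actZ_one, one_mul]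

theorem castV_add (x y : Fin n → ℤ) : castV (x + y) = castV x + castV y := by
  funext i
  simp [castV]

/-- (REP-KW) Weyl character formula + complete reducibility, Klimyk form. -/
theorem rep_klimyk (lam mu κ : Fin n → ℤ) (hl : DomZ lam) (hm : DomZ mu) (hk : DomZ κ)
    (m : (Fin n → ℤ) → ℤ) (hW : IsWeylChar mu m) :
    RepOcc Ty.D (castV lam) (castV mu) (castV κ) ↔
      altW (fun y => m (κ + rhoZ n - y)) (lam + rhoZ n) ≠ 0 := by
  by_cases hn : 2 ≤ n
  · have h := rep_klimyk2 hn (dblZ lam) (dblZ mu) (dblZ κ) (dominant2_dblZ hl) (dominant2_dblZ hm)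
      (dominant2_dblZ hk) (dblChar m) (isWeylChar2_dbl hW)
    unfold Occ at h
    rw [halfV_dblZ, halfV_dblZ, halfV_dblZ, rho2_eq_dblZ, ← dblZ_add, ← dblZ_add, altWD_dblZ] at h
    simp only [← dblZ_sub, dblChar_dblZ] at h
    exact h
  · have hn' : n ≤ 1 := by omega
    rw [altW_small hn']
    have h1 := hW.2 (κ - lam + rhoZ n)
    rw [altW_small hn', altW_small hn'] at h1
    have e1 : κ + rhoZ n - (lam + rhoZ n) = κ - lam + rhoZ n - rhoZ n := by abel
    rw [e1, h1]
    constructor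
    · intro h
      have h2 := an2_moment_central _ _ _ (an1_repOcc_moment _ _ _ h)
      rw [an2_ss_bot hn', Submodule.mem_bot, ← castV_add, sub_eq_zero] at h2
      have h3 := castV_injective h2
      rw [if_pos (by rw [← h3]; abel)]
      exact one_ne_zero
    · intro h
      have h2 : κ - lam + rhoZ n = mu + rhoZ n := by
        by_contra hcon
        rw [if_neg hcon] at h
        exact h rfl
      have h3 : κ = lam + mu := by
        have := add_right_cancel h2
        rw [← this]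
        abel
      rw [h3, castV_add]
      exact repOcc_add lam mu hl hm

/-! ## glue: K5 and K6 -/

/-- (K5) occurrence ⇒ decreasing dominant path, for every regular integral shape. -/
theorem repOcc_decpath (lam κ : Fin n → ℤ) (θ : List (Fin n → ℤ))
    (hθ : ∀ v ∈ θ, Ty.D.Reg (castV v)) (hl : Ty.D.Dom (castV lam)) (hκ : Ty.D.Dom (castV κ))
    (h : RepOcc Ty.D (castV lam) (castV θ.sum) (castV κ)) :
    HasDecPath Ty.D (castV lam) (θ.map castV) (castV κ) := by
  obtain ⟨L, hL⟩ := exists_goodMod θ hθ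
  have hl' := (domZ_iff lam).2 hl
  have hk' := (domZ_iff κ).2 hκ
  have h1 := (rep_klimyk lam θ.sum κ hl' (domZ_sum θ hθ) hk' _ (ls_weylChar θ hθ L hL)).1 h
  rw [ls_klimyk hθ hL lam κ hl' hk'] at h1
  have h2 : Nat.card {u : Word n θ L // IsLS θ L u ∧ LamDom lam θ L u ∧ EndsAt θ L u (κ - lam)} ≠ 0 := by
    intro h0
    apply h1
    rw [h0]
    rfl
  obtain ⟨⟨u, hu, hd, he⟩⟩ := (Nat.card_ne_zero.1 h2).1
  exact ls_decpath θ hθ L hL lam κ u hu hd he

/-- (K6) integral decreasing dominant path with straight pieces ⇒ occurrence. -/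
theorem vpath_repOcc (lam xi : Fin n → ℤ) (P : List (WD n × (Fin n → ℤ)))
    (h : IsVPath Ty.D (castV lam) (P.map fun a => (a.1, castV a.2)) (castV xi)) :
    RepOcc Ty.D (castV lam) (castV (P.map fun a => a.2).sum) (castV xi) := by
  have hθ : ∀ v ∈ P.map (fun a => a.2), Ty.D.Reg (castV v) := by
    intro v hv
    obtain ⟨a, ha, rfl⟩ := List.mem_map.1 hv
    exact h.reg (a.1, castV a.2) (List.mem_map.2 ⟨a, ha, rfl⟩)
  obtain ⟨L, hL⟩ := exists_goodMod _ hθ
  have hl' : DomZ lam := by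
    have := h.dom 0
    simp only [List.take_zero, List.map_nil, List.sum_nil, add_zero] at this
    exact (domZ_iff lam).2 this
  have hk' : DomZ xi := by
    have := h.dom (P.map fun a => (a.1, castV a.2)).length
    rw [List.take_length, h.endpoint] at this
    exact (domZ_iff xi).2 this
  obtain ⟨u, hu, hd, he⟩ := vpath_ls lam xi P h L hL
  refine (rep_klimyk lam _ xi hl' (domZ_sum _ hθ) hk' _ (ls_weylChar _ hθ L hL)).2 ?_
  rw [ls_klimyk hθ hL lam xi hl' hk']
  have : Nat.card {u : Word n (P.map fun a => a.2) L //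
      IsLS _ L u ∧ LamDom lam _ L u ∧ EndsAt _ L u (xi - lam)} ≠ 0 :=
    Nat.card_ne_zero.2 ⟨⟨⟨u, hu, hd, he⟩⟩, inferInstance⟩
  exact_mod_cast this

end Claimed.Agent.R282
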