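import Claimed.Agent.R282.S2AB.Contracts

/-!
# Row 282, Sec. 2, layers 2A + 2B: the four top contracts, proved from `Contracts.lean`

* `repOcc_moment` (Lemma 2.5) and `moment_open_approx` (Lemma 2.8) are in `Contracts.lean`;
* `sched_moment` (Lemma 2.6) and `moment_decpath` (Lemmas 2.8-2.10) are proved here (glue only).
-/

set_option autoImplicit false

namespace Claimed.Agent.R282

variable {n : ℕ}

theorem castV_nsmul (N : ℕ) (x : Fin n → ℤ) : castV (N • x) = (N : ℝ) • castV x := by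
  funext i
  simp [castV]

theorem castV_list_sum (θ : List (Fin n → ℤ)) : castV θ.sum = (θ.map castV).sum := by
  induction θ with
  | nil => funext i; simp [castV]
  | cons v θ ih =>
    rw [List.map_cons, List.sum_cons, List.sum_cons, ← ih]
    funext i
    simp [castV]

theorem list_sum_map_nsmul (N : ℕ) (θ : List (Fin n → ℤ)) :
    (θ.map fun v => N • v).sum = N • θ.sum := by
  induction θ with
  | nil => simp
  | cons v θ ih => rw [List.map_cons, List.sum_cons, List.sum_cons, ih, nsmul_add]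

theorem ShapeNear.mono {ε ε' : ℝ} {θ' θ : Shape n} (h : ShapeNear ε θ' θ) (hle : ε ≤ ε') :
    ShapeNear ε' θ' θ :=
  ⟨h.1, fun i => (h.2 i).trans_le hle⟩

theorem ShapeNear.refl {ε : ℝ} (hε : 0 < ε) (θ : Shape n) : ShapeNear ε θ θ :=
  ⟨rfl, fun i => by simpa using hε⟩

/-- (K12) a decreasing dominant path (regular shape, real data) gives a moment solution. -/
theorem decpath_moment (lam xi : Vec n) (θ : Shape n) (hθ : ∀ v ∈ θ, Ty.D.Reg v)
    (h : HasDecPath Ty.D lam θ xi) : Ty.D.Moment lam θ.sum xi := by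
  obtain ⟨P, hP, hsum⟩ := decpath_vpath lam xi θ hθ h
  apply moment_closed
  intro ε hε
  obtain ⟨N, lam', xi', P', _, hV, h1, h2, h3⟩ := vpath_rat_approx lam xi P hP ε hε
  refine ⟨_, (N : ℝ)⁻¹ • castV (P'.map fun a => a.2).sum, _, h1, ?_, h3, ?_⟩
  · rw [← hsum]; exact h2
  · exact moment_smul _ _ _ _ (repOcc_moment _ _ _ (vpath_repOcc lam' xi' P' hV))

/-- **Lemma 2.6** (schedules give moments), both families, no dominance of `lam`, `xi`. -/
theorem sched_moment (lam xi : Vec n) (θ : Shape n) (hθ : ∀ v ∈ θ, Ty.D.Dom v)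
    (h : HasSched Ty.D lam θ xi) : Ty.D.Moment lam θ.sum xi := by
  obtain ⟨w₁, w₂, hd₁, hd₂, hS⟩ := sched_weyl lam xi θ h
  have hD := sched_fold_dom _ _ θ hθ hd₁ hd₂ hS
  refine (moment_weyl _ _ _ w₁ w₂ trivial trivial).1 ?_
  apply moment_closed
  intro ε hε
  obtain ⟨lam', θ', xi', hreg, h1, h2, h3, hD'⟩ := decpath_regularize _ _ θ hθ hD ε hε
  exact ⟨lam', θ'.sum, xi', h1, h2, h3, decpath_moment _ _ θ' hreg hD'⟩

/-- (K14) integral data -/
theorem moment_decpath_int (lam xi : Fin n → ℤ) (θ : List (Fin n → ℤ))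
    (hθ : ∀ v ∈ θ, Ty.D.Reg (castV v)) (hl : Ty.D.Dom (castV lam)) (hx : Ty.D.Dom (castV xi))
    (h : Ty.D.Moment (castV lam) (castV θ.sum) (castV xi)) :
    HasDecPath Ty.D (castV lam) (θ.map castV) (castV xi) := by
  apply decpath_closed
  intro ε hε
  have hm : Ty.D.Dom (castV θ.sum) := by
    rw [castV_list_sum]
    apply dom_sum
    intro v hv
    obtain ⟨u, hu, rfl⟩ := List.mem_map.1 hv
    exact reg_dom _ (hθ u hu)
  obtain ⟨N, hN, κ, hκ, hocc, hd⟩ := moment_repOcc_approx lam θ.sum xi hl hm hx h ε hε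
  have hN' : (0 : ℝ) < N := by exact_mod_cast hN
  have hsum : (θ.map fun v => N • v).sum = N • θ.sum := list_sum_map_nsmul N θ
  have h5 := repOcc_decpath (N • lam) κ (θ.map fun v => N • v)
    (by
      intro v hv
      obtain ⟨u, hu, rfl⟩ := List.mem_map.1 hv
      rw [castV_nsmul]
      exact (reg_smul _ _ hN').2 (hθ u hu))
    (by rw [castV_nsmul]; exact (dom_smul _ _ hN').2 hl) hκ
    (by rw [hsum]; exact hocc)
  have h8 := decpath_smul _ _ _ (N : ℝ)⁻¹ (inv_pos.2 hN') h5
  refine ⟨castV lam, θ.map castV, (N : ℝ)⁻¹ • castV κ, by simpa using hε, ShapeNear.refl hε _, hd, ?_⟩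
  have e1 : (N : ℝ)⁻¹ • castV (N • lam) = castV lam := by
    rw [castV_nsmul, smul_smul, inv_mul_cancel₀ hN'.ne', one_smul]
  have e2 : (((θ.map fun v => N • v).map castV).map fun v => (N : ℝ)⁻¹ • v) = θ.map castV := by
    rw [List.map_map, List.map_map]
    apply List.map_congr_left
    intro v _
    simp only [Function.comp]
    rw [castV_nsmul, smul_smul, inv_mul_cancel₀ hN'.ne', one_smul]
  rw [e1, e2] at h8
  exact h8

/-- **Lemmas 2.8-2.10**: a real moment solution gives a dominant path with weakly Bruhat-decreasing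
velocity frames, for EVERY regular shape ending at `mu`. -/
theorem moment_decpath (lam xi : Vec n) (θ : Shape n) (hne : θ ≠ [])
    (hθ : ∀ v ∈ θ, Ty.D.Reg v) (hl : Ty.D.Dom lam) (hx : Ty.D.Dom xi)
    (h : Ty.D.Moment lam θ.sum xi) : HasDecPath Ty.D lam θ xi := by
  obtain ⟨ε₀, hε₀, hopen⟩ := shape_reg_open θ hθ
  apply decpath_closed
  intro ε hε
  have he : 0 < min ε ε₀ := lt_min hε hε₀
  have hm : Ty.D.Dom θ.sum := dom_sum θ fun v hv => reg_dom v (hθ v hv)
  obtain ⟨lam', mu', xi', h1, h2, h3, hc, δ, hδ, hball⟩ :=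
    moment_open_approx lam θ.sum xi hl hm hx h (min ε ε₀ / 2) (by positivity)
  obtain ⟨N, a, c, θ', hN, ha, hb, hc', hcen, hnear⟩ :=
    rat_approx lam' mu' xi' θ hne hc (min ε ε₀) (h2.trans (by linarith))
      (min δ (min ε ε₀ / 2)) (lt_min hδ (by positivity))
  have hN' : (0 : ℝ) < N := by exact_mod_cast hN
  obtain ⟨hra, _, hrc, hM⟩ := hball _ _ _ (ha.trans_le (min_le_left _ _))
    (hb.trans_le (min_le_left _ _)) (hc'.trans_le (min_le_left _ _)) hcen
  have hM' := moment_smul _ _ _ (N : ℝ) hM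
  simp only [smul_smul, mul_inv_cancel₀ hN'.ne', one_smul] at hM'
  have hreg : ∀ v ∈ θ', Ty.D.Reg (castV v) := by
    intro v hv
    have := hopen _ (hnear.mono (min_le_right _ _)) ((N : ℝ)⁻¹ • castV v)
      (List.mem_map.2 ⟨v, hv, rfl⟩)
    exact (reg_smul _ _ (inv_pos.2 hN')).1 this
  have hD := moment_decpath_int a c θ' hreg
    (reg_dom _ ((reg_smul _ _ (inv_pos.2 hN')).1 hra))
    (reg_dom _ ((reg_smul _ _ (inv_pos.2 hN')).1 hrc)) hM'
  have h8 := decpath_smul _ _ _ (N : ℝ)⁻¹ (inv_pos.2 hN') hD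
  rw [List.map_map] at h8
  refine ⟨_, _, _, ?_, hnear.mono (min_le_left _ _), ?_, h8⟩
  · calc dist ((N : ℝ)⁻¹ • castV a) lam ≤ dist ((N : ℝ)⁻¹ • castV a) lam' + dist lam' lam :=
        dist_triangle _ _ _
      _ < min ε ε₀ / 2 + min ε ε₀ / 2 := add_lt_add (ha.trans_le (min_le_right _ _)) h1
      _ ≤ ε := by rw [add_halves]; exact min_le_left _ _
  · calc dist ((N : ℝ)⁻¹ • castV c) xi ≤ dist ((N : ℝ)⁻¹ • castV c) xi' + dist xi' xi :=
        dist_triangle _ _ _
      _ < min ε ε₀ / 2 + min ε ε₀ / 2 := add_lt_add (hc'.trans_le (min_le_right _ _)) h3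
      _ ≤ ε := by rw [add_halves]; exact min_le_left _ _

/-! ## the two interface statements of `S2C/Iface.lean` -/

theorem abs_sub_le_dist (x y : Vec n) (i : Fin n) : |x i - y i| ≤ dist x y := by
  rw [← Real.dist_eq]
  exact dist_le_pi_dist x y i

theorem decPathDense_pf : DecPathDense Ty.D := by
  intro n lam mu xi hl _ hx hM θ hne hθ hsum ε hε
  refine ⟨θ, rfl, hθ, hsum, fun j i => by simpa using hε, ?_⟩
  exact moment_decpath lam xi θ hne hθ (reg_dom _ hl) (reg_dom _ hx) (by rw [hsum]; exact hM)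

theorem strictApprox_pf : StrictApprox Ty.D := by
  intro n lam mu xi hn hl hm hx hM ε hε
  obtain ⟨lam', mu', xi', h1, h2, h3, hc, δ, hδ, hball⟩ :=
    moment_open_approx lam mu xi hl hm hx hM (ε / 2) (by positivity)
  have h0 := hball lam' mu' xi' (by simpa using hδ) (by simpa using hδ) (by simpa using hδ) hc
  refine ⟨mu', h0.2.1, fun i => (abs_sub_le_dist _ _ i).trans_lt (h2.trans (by linarith)),
    Metric.ball lam' (min δ (ε / 2)) ×ˢ Metric.ball xi' (min δ (ε / 2)),
    Metric.isOpen_ball.prod Metric.isOpen_ball, ⟨(lam', xi'), ?_, ?_⟩, ?_⟩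
  · have : 0 < min δ (ε / 2) := lt_min hδ (by positivity)
    exact ⟨Metric.mem_ball_self this, Metric.mem_ball_self this⟩
  · exact (central_iff_ss (hn rfl) _ _ _).2 hc
  · rintro ⟨a, c⟩ ⟨ha, hc'⟩ hcen
    simp only [Metric.mem_ball] at ha hc'
    obtain ⟨r1, _, r3, hMom⟩ := hball a mu' c (ha.trans_le (min_le_left _ _)) (by simpa using hδ)
      (hc'.trans_le (min_le_left _ _)) ((central_iff_ss (hn rfl) _ _ _).1 hcen)
    refine ⟨fun i => ?_, fun i => ?_, r1, r3, hMom⟩
    · calc |a i - lam i| ≤ dist a lam := abs_sub_le_dist _ _ i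
        _ ≤ dist a lam' + dist lam' lam := dist_triangle _ _ _
        _ < ε / 2 + ε / 2 := add_lt_add (ha.trans_le (min_le_right _ _)) h1
        _ = ε := add_halves ε
    · calc |c i - xi i| ≤ dist c xi := abs_sub_le_dist _ _ i
        _ ≤ dist c xi' + dist xi' xi := dist_triangle _ _ _
        _ < ε / 2 + ε / 2 := add_lt_add (hc'.trans_le (min_le_right _ _)) h3
        _ = ε := add_halves ε

end Claimed.Agent.R282
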